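import Vale.Agent.P139Z.ODefs

/-! Rates of decay at infinity: elementary calculus. -/

open Set Filter Topology MeasureTheory Complex
open scoped NNReal ENNReal ComplexConjugate ContDiff

namespace Vale.Agent.P139Z.Decay

/-- Decay at the rate `ρ^(-c)` on `[1, ∞)`. -/
def Rt (c : ℝ) (φ : ℝ → ℂ) : Prop := ∃ C : ℝ, 0 ≤ C ∧ ∀ ρ : ℝ, 1 ≤ ρ → ‖φ ρ‖ ≤ C * ρ ^ (-c)

variable {c c' : ℝ} {φ ψ : ℝ → ℂ}

theorem Rt.of_bd {C : ℝ} (h : ∀ ρ : ℝ, 1 ≤ ρ → ‖φ ρ‖ ≤ C * ρ ^ (-c)) : Rt c φ := by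
  refine ⟨C, ?_, h⟩
  have := h 1 le_rfl
  rw [Real.one_rpow, mul_one] at this
  exact (norm_nonneg _).trans this

theorem Rt.mono (h : Rt c φ) (hc : c' ≤ c) : Rt c' φ := by
  obtain ⟨C, h0, h⟩ := h
  refine ⟨C, h0, fun ρ hρ => (h ρ hρ).trans (mul_le_mul_of_nonneg_left ?_ h0)⟩
  exact Real.rpow_le_rpow_of_exponent_le hρ (by linarith)

theorem Rt.of_norm_le (h : Rt c φ) (e : ∀ ρ : ℝ, 1 ≤ ρ → ‖ψ ρ‖ ≤ ‖φ ρ‖) : Rt c ψ := by
  obtain ⟨C, h0, h⟩ := h
  exact ⟨C, h0, fun ρ hρ => (e ρ hρ).trans (h ρ hρ)⟩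

theorem Rt.congr (h : Rt c φ) (e : ∀ ρ : ℝ, 1 ≤ ρ → ψ ρ = φ ρ) : Rt c ψ :=
  h.of_norm_le fun ρ hρ => by rw [e ρ hρ]

theorem Rt.add (h : Rt c φ) (h' : Rt c ψ) : Rt c fun ρ => φ ρ + ψ ρ := by
  obtain ⟨C, h0, h⟩ := h
  obtain ⟨C', h0', h'⟩ := h'
  refine ⟨C + C', by positivity, fun ρ hρ => (norm_add_le _ _).trans ?_⟩
  rw [add_mul]
  exact add_le_add (h ρ hρ) (h' ρ hρ)

theorem Rt.mul (h : Rt c φ) (h' : Rt c' ψ) : Rt (c + c') fun ρ => φ ρ * ψ ρ := by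
  obtain ⟨C, h0, h⟩ := h
  obtain ⟨C', h0', h'⟩ := h'
  refine ⟨C * C', by positivity, fun ρ hρ => ?_⟩
  have hp : 0 < ρ := by linarith
  rw [norm_mul, neg_add, Real.rpow_add hp]
  calc ‖φ ρ‖ * ‖ψ ρ‖ ≤ (C * ρ ^ (-c)) * (C' * ρ ^ (-c')) :=
        mul_le_mul (h ρ hρ) (h' ρ hρ) (norm_nonneg _) (by positivity)
    _ = _ := by ring

theorem Rt.const_mul (h : Rt c φ) (a : ℂ) : Rt c fun ρ => a * φ ρ := by
  obtain ⟨C, h0, h⟩ := h
  refine ⟨‖a‖ * C, by positivity, fun ρ hρ => ?_⟩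
  rw [norm_mul, mul_assoc]
  exact mul_le_mul_of_nonneg_left (h ρ hρ) (norm_nonneg _)

theorem Rt.zero (c : ℝ) : Rt c fun _ => 0 := ⟨0, le_rfl, fun ρ _ => by simp⟩

theorem Rt.sum {ι : Type*} (s : Finset ι) {F : ι → ℝ → ℂ} (h : ∀ i ∈ s, Rt c (F i)) :
    Rt c fun ρ => ∑ i ∈ s, F i ρ := by
  classical
  induction s using Finset.induction_on with
  | empty => simpa using Rt.zero c
  | insert a s ha ih =>
    have h1 := (h a (Finset.mem_insert_self a s)).add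
      (ih fun i hi => h i (Finset.mem_insert_of_mem hi))
    exact h1.congr fun ρ _ => by rw [Finset.sum_insert ha]

theorem iter_conj (j : ℕ) (F : ℝ → ℂ) :
    iteratedDeriv j (fun x => conj (F x)) = fun x => conj (iteratedDeriv j F x) := by
  induction j with
  | zero => simp
  | succ j ih =>
    rw [iteratedDeriv_succ, ih, iteratedDeriv_succ]
    exact deriv.star'

theorem Rt.conj_iter {j : ℕ} {F : ℝ → ℂ} (h : Rt c (iteratedDeriv j F)) :
    Rt c (iteratedDeriv j fun x => conj (F x)) := by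
  rw [iter_conj]
  exact h.of_norm_le fun ρ _ => by rw [RCLike.norm_conj]

theorem symb_rt {M : ℝ} {F : ℝ → ℂ} (h : Symb M F) (j : ℕ) :
    Rt (-M + j) (iteratedDeriv j F) := by
  obtain ⟨C, hC⟩ := h.bd j
  refine Rt.of_bd (C := C) fun ρ hρ => ?_
  rw [show -(-M + (j : ℝ)) = M - j by ring]
  exact hC ρ hρ

/-- Integration of the Euler operator. -/
theorem Rt.of_euler {K K' R : ℝ → ℂ} {a : ℂ} (hd : ∀ ρ : ℝ, 1 ≤ ρ → HasDerivAt K (K' ρ) ρ)
    (e : ∀ ρ : ℝ, 1 ≤ ρ → ρ * K' ρ + a * K ρ = R ρ) (hR : Rt c R) (hc : c < a.re) :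
    Rt c K := by
  obtain ⟨C, h0, hR⟩ := hR
  set d := a.re - c with hd0
  have hdp : 0 < d := by rw [hd0]; linarith
  let E : ℝ → ℂ := fun x => cexp (a * (Real.log x : ℝ))
  have hE : ∀ x : ℝ, 0 < x → ‖E x‖ = x ^ a.re := by
    intro x hx
    simp only [E]
    rw [Complex.norm_exp, Real.rpow_def_of_pos hx]
    congr 1
    simp [mul_comm]
  have hE' : ∀ x : ℝ, 0 < x → HasDerivAt E (E x * (a * ((x⁻¹ : ℝ) : ℂ))) x := by
    intro x hx
    exact (((Real.hasDerivAt_log hx.ne').ofReal_comp).const_mul a).cexp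
  have hφ : ∀ x : ℝ, 1 ≤ x →
      HasDerivAt (fun y => E y * K y) (E x * ((x⁻¹ : ℝ) : ℂ) * R x) x := by
    intro x hx
    have hx0 : 0 < x := by linarith
    have hx1 : (x : ℂ) ≠ 0 := by exact_mod_cast hx0.ne'
    refine ((hE' x hx0).mul (hd x hx)).congr_deriv ?_
    rw [← e x hx]
    push_cast
    field_simp
    ring
  refine ⟨‖K 1‖ + C / d, by positivity, fun ρ hρ => ?_⟩
  have hp : 0 < ρ := by linarith
  have key := image_norm_le_of_norm_deriv_right_le_deriv_boundary'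
    (f := fun y => E y * K y) (a := 1) (b := ρ)
    (f' := fun x => E x * ((x⁻¹ : ℝ) : ℂ) * R x)
    (fun x hx => (hφ x hx.1).continuousAt.continuousWithinAt)
    (fun x hx => (hφ x hx.1).hasDerivWithinAt)
    (B := fun x => ‖K 1‖ + C / d * x ^ d) (B' := fun x => C / d * (d * x ^ (d - 1)))
    (by
      simp only [E, Real.log_one, Complex.ofReal_zero, mul_zero, Complex.exp_zero, one_mul,
        Real.one_rpow]
      have : 0 ≤ C / d := by positivity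
      linarith)
    (fun x hx => by
      have hx0 : x ≠ 0 := by have := hx.1; intro h; linarith
      exact (((Real.hasDerivAt_rpow_const (p := d) (Or.inl hx0)).const_mul (C / d)).const_add
        _).continuousAt.continuousWithinAt)
    (fun x hx => by
      have hx0 : x ≠ 0 := by have := hx.1; intro h; linarith
      exact (((Real.hasDerivAt_rpow_const (p := d) (Or.inl hx0)).const_mul (C / d)).const_add
        _).hasDerivWithinAt)
    (fun x hx => by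
      have hx0 : 0 < x := by have := hx.1; linarith
      rw [norm_mul, norm_mul, hE x hx0, Complex.norm_real, Real.norm_of_nonneg (by positivity)]
      calc x ^ a.re * x⁻¹ * ‖R x‖ ≤ x ^ a.re * x⁻¹ * (C * x ^ (-c)) :=
            mul_le_mul_of_nonneg_left (hR x hx.1) (by positivity)
        _ = C * (x ^ a.re * x ^ (-c) * x ^ (-1 : ℝ)) := by rw [Real.rpow_neg_one]; ring
        _ = C / d * (d * x ^ (d - 1)) := by
            rw [← Real.rpow_add hx0, ← Real.rpow_add hx0,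
              show a.re + -c + -1 = d - 1 by rw [hd0]; ring]
            field_simp)
    (x := ρ) ⟨hρ, le_rfl⟩
  rw [norm_mul, hE ρ hp] at key
  have h1 : 1 ≤ ρ ^ d := Real.one_le_rpow hρ hdp.le
  have h2 : ρ ^ a.re * ‖K ρ‖ ≤ (‖K 1‖ + C / d) * ρ ^ d := by
    have : ‖K 1‖ ≤ ‖K 1‖ * ρ ^ d := le_mul_of_one_le_right (norm_nonneg _) h1
    rw [add_mul]
    linarith
  have h3 : ρ ^ d = ρ ^ a.re * ρ ^ (-c) := by
    rw [← Real.rpow_add hp, hd0]
    congr 1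
  have h4 : 0 < ρ ^ a.re := Real.rpow_pos_of_pos hp _
  rw [h3] at h2
  refine le_of_mul_le_mul_left ?_ h4
  calc ρ ^ a.re * ‖K ρ‖ ≤ _ := h2
    _ = _ := by ring

/-- Functions of the radius times powers. -/
noncomputable def sq (φ : ℝ → ℂ) (s : ℝ) (ρ : ℝ) : ℂ := φ (Real.sqrt ρ) * ((ρ ^ (-s) : ℝ) : ℂ)

theorem contDiffAt_sq {n : ℕ} (hφ : ContDiff ℝ n φ) (s : ℝ) {ρ : ℝ} (hρ : 0 < ρ) :
    ContDiffAt ℝ n (sq φ s) ρ := by
  refine (hφ.contDiffAt.comp ρ (Real.contDiffAt_sqrt hρ.ne')).mul ?_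
  exact Complex.ofRealCLM.contDiff.contDiffAt.comp ρ (Real.contDiffAt_rpow_const_of_ne hρ.ne')

theorem deriv_sq (hφ : Differentiable ℝ φ) (s : ℝ) {ρ : ℝ} (hρ : 0 < ρ) :
    deriv (sq φ s) ρ = (1 / 2 : ℂ) * sq (deriv φ) (s + 1 / 2) ρ + (-s : ℂ) * sq φ (s + 1) ρ := by
  have h1 : HasDerivAt (fun x => φ (Real.sqrt x))
      ((1 / (2 * Real.sqrt ρ)) • deriv φ (Real.sqrt ρ)) ρ :=
    (hφ _).hasDerivAt.scomp ρ (Real.hasDerivAt_sqrt hρ.ne')
  have h2 : HasDerivAt (fun x : ℝ => ((x ^ (-s) : ℝ) : ℂ)) ((-s * ρ ^ (-s - 1) : ℝ) : ℂ) ρ :=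
    (Real.hasDerivAt_rpow_const (p := -s) (Or.inl hρ.ne')).ofReal_comp
  have h3 := (h1.mul h2).deriv
  have e1 : ρ ^ (-(s + 1 / 2)) = ρ ^ (-s) * (Real.sqrt ρ)⁻¹ := by
    rw [neg_add, Real.rpow_add hρ, Real.sqrt_eq_rpow, Real.rpow_neg hρ.le (1 / 2)]
  have e2 : ρ ^ (-(s + 1)) = ρ ^ (-s - 1) := by congr 1; ring
  have hs : ((Real.sqrt ρ : ℝ) : ℂ) ≠ 0 := by
    exact_mod_cast (Real.sqrt_pos.2 hρ).ne'
  change deriv (fun x => φ (Real.sqrt x) * ((x ^ (-s) : ℝ) : ℂ)) ρ = _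
  refine h3.trans ?_
  simp only [sq, e1, e2, Complex.real_smul]
  push_cast
  field_simp

theorem rt_sq (j : ℕ) : ∀ (φ : ℝ → ℂ) (s : ℝ), BddC j φ → Rt (s + j / 2) (iteratedDeriv j (sq φ s)) := by
  induction j with
  | zero =>
    intro φ s h
    obtain ⟨C, hC⟩ := h.bdd
    refine Rt.of_bd (C := C) fun ρ hρ => ?_
    have hp : 0 < ρ := by linarith
    have h1 := hC 0 le_rfl (Real.sqrt ρ)
    simp only [iteratedDeriv_zero, sq, norm_mul, Complex.norm_real, Nat.cast_zero, zero_div,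
      add_zero] at h1 ⊢
    rw [Real.norm_of_nonneg (by positivity)]
    exact mul_le_mul_of_nonneg_right h1 (by positivity)
  | succ j ih =>
    intro φ s h
    obtain ⟨C, hC⟩ := h.bdd
    have hs : ContDiff ℝ (j + 1) φ := by exact_mod_cast h.smooth
    have hs0 : ContDiff ℝ j φ := hs.of_le (by simp)
    have hs1 : ContDiff ℝ j (deriv φ) := hs.deriv'
    have hdiff : Differentiable ℝ φ := hs.differentiable (by simp)
    have b0 : BddC j φ := ⟨hs0, C, fun i hi r => hC i (by omega) r⟩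
    have b1 : BddC j (deriv φ) := ⟨hs1, C, fun i hi r => by
      rw [← iteratedDeriv_succ']
      exact hC (i + 1) (by omega) r⟩
    have r1 := ((ih _ (s + 1 / 2) b1).const_mul (1 / 2)).mono
      (c' := s + ((j + 1 : ℕ) : ℝ) / 2) (by push_cast; linarith)
    have r0 := ((ih _ (s + 1) b0).const_mul (-s)).mono
      (c' := s + ((j + 1 : ℕ) : ℝ) / 2) (by push_cast; linarith)
    refine (r1.add r0).congr fun ρ hρ => ?_
    have hp : 0 < ρ := by linarith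
    have ev : deriv (sq φ s) =ᶠ[𝓝 ρ] fun x =>
        (1 / 2 : ℂ) * sq (deriv φ) (s + 1 / 2) x + (-s : ℂ) * sq φ (s + 1) x := by
      filter_upwards [Ioi_mem_nhds hp] with x hx
      exact deriv_sq hdiff s hx
    rw [iteratedDeriv_succ', ev.iteratedDeriv_eq,
      iteratedDeriv_fun_add (contDiffAt_const.mul (contDiffAt_sq hs1 _ hp))
        (contDiffAt_const.mul (contDiffAt_sq hs0 _ hp)),
      iteratedDeriv_const_mul_field, iteratedDeriv_const_mul_field]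

theorem red_eq_sq (l : ℕ) (f : ℝ → ℂ) {ρ : ℝ} (hρ : 0 < ρ) : red l f ρ = sq f (l / 2) ρ := by
  have e : ρ ^ (-((l : ℝ) / 2)) = ((Real.sqrt ρ) ^ l)⁻¹ := by
    rw [Real.rpow_neg hρ.le, Real.sqrt_eq_rpow, ← Real.rpow_natCast, ← Real.rpow_mul hρ.le]
    congr 2
    ring
  simp only [red, sq, e]
  push_cast
  rw [div_eq_mul_inv]

theorem rt_red (l : ℕ) {f : ℝ → ℂ} (hf : BddC 30 f) {j : ℕ} (hj : j ≤ 30) :
    Rt (l / 2 + j / 2) (iteratedDeriv j (red l f)) := by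
  obtain ⟨C, hC⟩ := hf.bdd
  have b : BddC j f := ⟨hf.smooth.of_le (by exact_mod_cast hj), C,
    fun i hi r => hC i (hi.trans hj) r⟩
  refine (rt_sq j f (l / 2) b).congr fun ρ hρ => ?_
  have hp : 0 < ρ := by linarith
  refine Filter.EventuallyEq.iteratedDeriv_eq j ?_
  filter_upwards [Ioi_mem_nhds hp] with x hx
  exact red_eq_sq l f hx

end Vale.Agent.P139Z.Decay
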